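import Mathlib
import Vale.Agent.Lib.P248.helper37.Q2Defs
import Vale.Agent.Lib.P248.helper96.ConeVol

/-!
# P248 pool job 452 (third copy, helper26): the cone inequality for compact convex subsets of the
positive orthant (not necessarily down-closed)

`∑ i, y i * |sec M i| ≤ (n + 1) * |M|` for `y ∈ M`: the cones with apex `y` over the facet
sections lie in `M` and overlap only in null sets.
-/

open MeasureTheory Set

namespace Vale.Agent.Lib.P248.H26Q

open Vale.Agent.Lib.P248.H37 Vale.Agent.Lib.P248.H37Q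

variable {n : ℕ}

/-- the cone with apex `y` over the section of `M` by the hyperplane `p i = 0` -/
def coneP (M : Set (Fin (n + 1) → ℝ)) (y : Fin (n + 1) → ℝ) (i : Fin (n + 1)) :
    Set (Fin (n + 1) → ℝ) :=
  (fun q : ℝ × (Fin n → ℝ) =>
    (1 - q.1) • y + q.1 • (Fin.insertNth i (0 : ℝ) q.2 : Fin (n + 1) → ℝ)) ''
      (Icc (0 : ℝ) 1 ×ˢ sec M i)

theorem isCompact_sec {M : Set (Fin (n + 1) → ℝ)} (hcomp : IsCompact M) (i : Fin (n + 1)) :
    IsCompact (sec M i) := by
  have h1 : sec M i = (fun p : Fin (n + 1) → ℝ => (i.removeNth p : Fin n → ℝ)) ''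
      (M ∩ {p | p i = 0}) := by
    ext z
    constructor
    · intro hz
      refine ⟨Fin.insertNth i (0 : ℝ) z, ⟨hz, ?_⟩, ?_⟩
      · exact ins_same i 0 z
      · exact Fin.removeNth_insertNth (α := fun _ => ℝ) i 0 z
    · rintro ⟨p, ⟨hp, hp0⟩, rfl⟩
      show (Fin.insertNth i (0 : ℝ) (i.removeNth p) : Fin (n + 1) → ℝ) ∈ M
      have hp0' : p i = 0 := hp0
      rw [← hp0', Fin.insertNth_self_removeNth]
      exact hp
  rw [h1]
  have hcl : IsClosed {p : Fin (n + 1) → ℝ | p i = 0} :=
    isClosed_eq (continuous_apply i) continuous_const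
  have hcont : Continuous (fun p : Fin (n + 1) → ℝ => (i.removeNth p : Fin n → ℝ)) := by
    unfold Fin.removeNth
    fun_prop
  exact (hcomp.inter_right hcl).image hcont

theorem isCompact_coneP {M : Set (Fin (n + 1) → ℝ)} (hcomp : IsCompact M)
    (y : Fin (n + 1) → ℝ) (i : Fin (n + 1)) : IsCompact (coneP M y i) := by
  unfold coneP
  refine (isCompact_Icc.prod (isCompact_sec hcomp i)).image ?_
  have h1 : Continuous (fun q : ℝ × (Fin n → ℝ) =>
      (Fin.insertNth i (0 : ℝ) q.2 : Fin (n + 1) → ℝ)) :=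
    (continuous_ins i).comp continuous_snd
  fun_prop

theorem coneP_subset {M : Set (Fin (n + 1) → ℝ)} (hconv : Convex ℝ M)
    {y : Fin (n + 1) → ℝ} (hy : y ∈ M) (i : Fin (n + 1)) : coneP M y i ⊆ M := by
  rintro _ ⟨⟨t, w⟩, ⟨ht, hw⟩, rfl⟩
  exact hconv hy hw (by linarith [ht.2]) ht.1 (by ring)

/-- on the cone over the facet `i`, the coordinate `i` is the smallest relative to `y` -/
theorem coneP_coord {M : Set (Fin (n + 1) → ℝ)} (hnn : ∀ p ∈ M, ∀ i, 0 ≤ p i)
    {y : Fin (n + 1) → ℝ} (hy : y ∈ M) {i : Fin (n + 1)} {p : Fin (n + 1) → ℝ}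
    (hp : p ∈ coneP M y i) (j : Fin (n + 1)) : p i * y j ≤ p j * y i := by
  obtain ⟨⟨t, w⟩, ⟨ht, hw⟩, rfl⟩ := hp
  have hw' : (Fin.insertNth i (0 : ℝ) w : Fin (n + 1) → ℝ) ∈ M := hw
  have h1 : 0 ≤ (Fin.insertNth i (0 : ℝ) w : Fin (n + 1) → ℝ) j := hnn _ hw' j
  have h2 : (Fin.insertNth i (0 : ℝ) w : Fin (n + 1) → ℝ) i = 0 := ins_same i 0 w
  have hyi : 0 ≤ y i := hnn y hy i
  have ht0 : 0 ≤ t := ht.1
  simp only [Pi.add_apply, Pi.smul_apply, smul_eq_mul, h2, mul_zero, add_zero]
  have h3 : 0 ≤ t * (Fin.insertNth i (0 : ℝ) w : Fin (n + 1) → ℝ) j * y i :=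
    mul_nonneg (mul_nonneg ht0 h1) hyi
  nlinarith

theorem null_hyper (y : Fin (n + 1) → ℝ) {i j : Fin (n + 1)} (hij : i ≠ j) (hyi : y i ≠ 0) :
    volume {p : Fin (n + 1) → ℝ | p i * y j = p j * y i} = 0 := by
  set φ : (Fin (n + 1) → ℝ) →ₗ[ℝ] ℝ :=
    (y j) • LinearMap.proj i - (y i) • LinearMap.proj j with hφ
  have h1 : {p : Fin (n + 1) → ℝ | p i * y j = p j * y i} = (LinearMap.ker φ : Set _) := by
    ext p
    show (p i * y j = p j * y i) ↔ p ∈ (LinearMap.ker φ : Set _)
    have e : φ p = y j * p i - y i * p j := by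
      simp only [hφ, LinearMap.sub_apply, LinearMap.smul_apply, LinearMap.proj_apply,
        smul_eq_mul]
    rw [SetLike.mem_coe, LinearMap.mem_ker, e]
    constructor
    · intro h; linarith
    · intro h; linarith
  rw [h1]
  apply Measure.addHaar_submodule
  intro htop
  have h2 : (Pi.single j 1 : Fin (n + 1) → ℝ) ∈ LinearMap.ker φ := by
    rw [htop]; trivial
  rw [LinearMap.mem_ker] at h2
  simp only [hφ, LinearMap.sub_apply, LinearMap.smul_apply, LinearMap.proj_apply, smul_eq_mul,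
    Pi.single_eq_same, Pi.single_eq_of_ne hij, mul_zero, mul_one, zero_sub, neg_eq_zero] at h2
  exact hyi h2

theorem coneP_aedisjoint {M : Set (Fin (n + 1) → ℝ)} (hnn : ∀ p ∈ M, ∀ i, 0 ≤ p i)
    {y : Fin (n + 1) → ℝ} (hy : y ∈ M) {i j : Fin (n + 1)} (hij : i ≠ j) (hyi : 0 < y i) :
    AEDisjoint volume (coneP M y i) (coneP M y j) := by
  refine measure_mono_null ?_ (null_hyper y hij hyi.ne')
  rintro p ⟨hpi, hpj⟩
  have h1 := coneP_coord hnn hy hpi j
  have h2 := coneP_coord hnn hy hpj i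
  exact le_antisymm h1 h2

/-- the section of the cone at height `s` contains a homothetic copy of the facet section -/
theorem coneP_sec_ge (M : Set (Fin (n + 1) → ℝ)) (y : Fin (n + 1) → ℝ) (i : Fin (n + 1))
    (hyi : 0 < y i) (s : ℝ) (hs : s ∈ Ico (0 : ℝ) (y i)) :
    ENNReal.ofReal ((1 - s / y i) ^ n) * volume (sec M i) ≤
      volume (Prod.mk s ⁻¹' ((MeasurableEquiv.piFinSuccAbove (fun _ => ℝ) i).symm ⁻¹'
        coneP M y i)) := by
  have hr0 : 0 ≤ s / y i := div_nonneg hs.1 hyi.le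
  have hr1 : s / y i < 1 := (div_lt_one hyi).mpr hs.2
  have hsub : AffineMap.homothety (i.removeNth y : Fin n → ℝ) (1 - s / y i) '' sec M i ⊆
      Prod.mk s ⁻¹' ((MeasurableEquiv.piFinSuccAbove (fun _ => ℝ) i).symm ⁻¹' coneP M y i) := by
    rintro _ ⟨b, hb, rfl⟩
    show (MeasurableEquiv.piFinSuccAbove (fun _ => ℝ) i).symm
      (s, AffineMap.homothety (i.removeNth y : Fin n → ℝ) (1 - s / y i) b) ∈ coneP M y i
    refine ⟨(1 - s / y i, b), ⟨⟨by linarith, by linarith⟩, hb⟩, ?_⟩
    rw [MeasurableEquiv.piFinSuccAbove_symm_apply]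
    show (1 - (1 - s / y i)) • y + (1 - s / y i) • (Fin.insertNth i (0 : ℝ) b : Fin (n + 1) → ℝ)
      = (Fin.insertNth i s (AffineMap.homothety (i.removeNth y : Fin n → ℝ) (1 - s / y i) b) :
          Fin (n + 1) → ℝ)
    have e : s / y i * y i = s := div_mul_cancel₀ s hyi.ne'
    funext k
    refine Fin.succAboveCases i ?_ (fun j => ?_) k
    · have h1 : (Fin.insertNth i (0 : ℝ) b : Fin (n + 1) → ℝ) i = 0 := ins_same i 0 b
      have h2 : (Fin.insertNth i s (AffineMap.homothety (i.removeNth y : Fin n → ℝ)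
          (1 - s / y i) b) : Fin (n + 1) → ℝ) i = s := ins_same i s _
      rw [h2]
      simp only [Pi.add_apply, Pi.smul_apply, smul_eq_mul, h1]
      linear_combination e
    · have h1 : (Fin.insertNth i (0 : ℝ) b : Fin (n + 1) → ℝ) (i.succAbove j) = b j :=
        ins_succ i 0 b j
      have h2 : (Fin.insertNth i s (AffineMap.homothety (i.removeNth y : Fin n → ℝ)
          (1 - s / y i) b) : Fin (n + 1) → ℝ) (i.succAbove j)
          = (AffineMap.homothety (i.removeNth y : Fin n → ℝ) (1 - s / y i) b) j :=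
        ins_succ i s _ j
      rw [h2]
      simp only [Pi.add_apply, Pi.smul_apply, smul_eq_mul, h1, AffineMap.homothety_apply,
        vsub_eq_sub, vadd_eq_add, Pi.sub_apply, Fin.removeNth]
      ring
  calc ENNReal.ofReal ((1 - s / y i) ^ n) * volume (sec M i)
      = volume (AffineMap.homothety (i.removeNth y : Fin n → ℝ) (1 - s / y i) '' sec M i) := by
        rw [Measure.addHaar_image_homothety, Module.finrank_fin_fun,
          abs_of_nonneg (pow_nonneg (by linarith) n)]
    _ ≤ _ := measure_mono hsub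

theorem vol_coneP_ge {M : Set (Fin (n + 1) → ℝ)} (hcomp : IsCompact M)
    (y : Fin (n + 1) → ℝ) (i : Fin (n + 1)) (hyi : 0 < y i) :
    ENNReal.ofReal (y i / (n + 1)) * volume (sec M i) ≤ volume (coneP M y i) := by
  have hmeas : MeasurableSet (coneP M y i) := (isCompact_coneP hcomp y i).isClosed.measurableSet
  have hmeas' : MeasurableSet ((MeasurableEquiv.piFinSuccAbove (fun _ => ℝ) i).symm ⁻¹'
      coneP M y i) :=
    (MeasurableEquiv.piFinSuccAbove (fun _ => ℝ) i).symm.measurable hmeas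
  have hvol : volume (coneP M y i) = volume ((MeasurableEquiv.piFinSuccAbove (fun _ => ℝ) i).symm ⁻¹'
      coneP M y i) := by
    rw [← (volume_preserving_piFinSuccAbove (fun _ => ℝ) i).measure_preimage_equiv]
    congr 1
    ext p
    simp
  have hmf : Measurable (fun t : ℝ => ENNReal.ofReal ((1 - t / y i) ^ n)) := by fun_prop
  rw [hvol, Measure.volume_eq_prod, Measure.prod_apply hmeas']
  calc ENNReal.ofReal (y i / (n + 1)) * volume (sec M i)
      = (∫⁻ t in Ico (0 : ℝ) (y i), ENNReal.ofReal ((1 - t / y i) ^ n)) * volume (sec M i) := by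
        rw [Vale.Agent.Lib.P248.H96.lintegral_cone_profile n (y i) hyi]
    _ = ∫⁻ t in Ico (0 : ℝ) (y i), ENNReal.ofReal ((1 - t / y i) ^ n) * volume (sec M i) := by
        rw [lintegral_mul_const _ hmf]
    _ ≤ ∫⁻ t in Ico (0 : ℝ) (y i), volume (Prod.mk t ⁻¹'
          ((MeasurableEquiv.piFinSuccAbove (fun _ => ℝ) i).symm ⁻¹' coneP M y i)) :=
        setLIntegral_mono' measurableSet_Ico (fun t ht => coneP_sec_ge M y i hyi t ht)
    _ ≤ ∫⁻ t, volume (Prod.mk t ⁻¹'
          ((MeasurableEquiv.piFinSuccAbove (fun _ => ℝ) i).symm ⁻¹' coneP M y i)) :=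
        setLIntegral_le_lintegral _ _

theorem cone_ineq_convex (n : ℕ) (M : Set (Fin (n + 1) → ℝ)) (hcomp : IsCompact M)
    (hconv : Convex ℝ M) (hnn : ∀ p ∈ M, ∀ i, 0 ≤ p i) (y : Fin (n + 1) → ℝ) (hy : y ∈ M) :
    ∑ i, ENNReal.ofReal (y i) * volume (sec M i) ≤ ((n : ENNReal) + 1) * volume M := by
  classical
  set P : Fin (n + 1) → Set (Fin (n + 1) → ℝ) := fun i => if 0 < y i then coneP M y i else ∅
    with hP
  have hPsub : ∀ i, P i ⊆ M := by
    intro i
    by_cases h : 0 < y i
    · simp only [hP, if_pos h]; exact coneP_subset hconv hy i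
    · simp only [hP, if_neg h]; exact empty_subset _
  have hPmeas : ∀ i, NullMeasurableSet (P i) volume := by
    intro i
    by_cases h : 0 < y i
    · simp only [hP, if_pos h]
      exact (isCompact_coneP hcomp y i).isClosed.measurableSet.nullMeasurableSet
    · simp only [hP, if_neg h]; exact MeasurableSet.empty.nullMeasurableSet
  have hPdisj : Pairwise (Function.onFun (AEDisjoint volume) P) := by
    intro i j hij
    show AEDisjoint volume (P i) (P j)
    by_cases h : 0 < y i
    · by_cases h' : 0 < y j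
      · simp only [hP, if_pos h, if_pos h']
        exact coneP_aedisjoint hnn hy hij h
      · simp only [hP, if_neg h']
        exact AEDisjoint.symm (by simp [AEDisjoint])
    · simp only [hP, if_neg h]
      simp [AEDisjoint]
  have hterm : ∀ i, ENNReal.ofReal (y i) * volume (sec M i) ≤
      ((n : ENNReal) + 1) * volume (P i) := by
    intro i
    by_cases h : 0 < y i
    · simp only [hP, if_pos h]
      have h1 := vol_coneP_ge hcomp y i h
      have h2 : ENNReal.ofReal (y i) = ((n : ENNReal) + 1) * ENNReal.ofReal (y i / (n + 1)) := by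
        have h3 : ((n : ENNReal) + 1) = ENNReal.ofReal ((n : ℝ) + 1) := by
          rw [ENNReal.ofReal_add (by positivity) (by norm_num), ENNReal.ofReal_natCast,
            ENNReal.ofReal_one]
        rw [h3, ← ENNReal.ofReal_mul (by positivity)]
        congr 1
        field_simp
      rw [h2, mul_assoc]
      gcongr
    · have h0 : ENNReal.ofReal (y i) = 0 := ENNReal.ofReal_eq_zero.2 (not_lt.1 h)
      rw [h0, zero_mul]
      exact bot_le
  calc ∑ i, ENNReal.ofReal (y i) * volume (sec M i)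
      ≤ ∑ i, ((n : ENNReal) + 1) * volume (P i) := Finset.sum_le_sum (fun i _ => hterm i)
    _ = ((n : ENNReal) + 1) * ∑ i, volume (P i) := by rw [Finset.mul_sum]
    _ = ((n : ENNReal) + 1) * volume (⋃ i, P i) := by
        rw [measure_iUnion₀ hPdisj hPmeas, tsum_fintype]
    _ ≤ ((n : ENNReal) + 1) * volume M := by
        gcongr
        exact iUnion_subset hPsub

end Vale.Agent.Lib.P248.H26Q
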